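import Crest.Agent.N221.D.Chart
import Crest.Agent.N221.C.Lps_Mg
import Crest.Agent.N221.U.Lip
import Crest.Agent.N221.Ex.Pj
import Crest.Agent.N221.Ch.Unif
import Crest.Agent.N221.X.Int

-- ▼ part N221/X/Hol
section

/-!
Row 221, block X (helper71): the Gromov product `gp y ξ η` seen from `y` is comparable with
`-log ‖W ξ y - W η y‖`; `W`, `b` are Hölder in `ξ`; the transfer function `α` is Hölder.
-/

set_option autoImplicit false
set_option linter.unusedSectionVars false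
set_option linter.unusedVariables false

open MeasureTheory Set Filter Topology
open scoped ContDiff RealInnerProductSpace ENNReal
open Crest.GeometryTopology.Submanifold
open Crest.Agent.R241.DDefs Crest.Agent.R241.D2
open Crest.Agent.R208.J Crest.Agent.R208.L

noncomputable section

namespace Crest.Agent.N221.Cov

variable {n N : ℕ} {a : ℝ} {S : Set (Euc N)} {G : Geo n N (-(a ^ 2)) S} (C : Cov G)
variable {x y ξ η : Euc n}

/-- twice the Gromov product of `ξ, η` seen from `y` -/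
def gp (y ξ η : Euc n) : ℝ := C.cc ξ η + C.b ξ y + C.b η y

lemma W_eq_of_not_GO (hξ : ξ ≠ 0) (hη : η ≠ 0) (h : (ξ, η) ∉ GO n) :
    C.W ξ = C.W η ∧ C.b ξ = C.b η := by
  have e : ‖ξ‖⁻¹ • ξ = ‖η‖⁻¹ • η := by
    by_contra e
    exact h ⟨hξ, hη, e⟩
  have p1 : 0 < ‖ξ‖⁻¹ := inv_pos.2 (norm_pos_iff.2 hξ)
  have p2 : 0 < ‖η‖⁻¹ := inv_pos.2 (norm_pos_iff.2 hη)
  exact ⟨funext fun y => by rw [← C.W_smul p1, e, C.W_smul p2],
    funext fun y => by rw [← C.b_smul p1, e, C.b_smul p2]⟩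

section
variable (ha : 0 < a)
include ha

lemma gp_nonneg (h : (ξ, η) ∈ GO n) (y : Euc n) : 0 ≤ C.gp y ξ η := by
  have := C.neg_cc_le ha h y
  unfold gp; linarith

lemma gp_lip (h : (ξ, η) ∈ GO n) (x y : Euc n) : |C.gp x ξ η - C.gp y ξ η| ≤ 2 * C.dd x y := by
  have h1 := abs_le.1 (C.abs_b_sub_le ha h.1 x y)
  have h2 := abs_le.1 (C.abs_b_sub_le ha h.2.1 x y)
  unfold gp
  rw [abs_le]; constructor <;> linarith [h1.1, h1.2, h2.1, h2.2]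


lemma gp_upper (h : (ξ, η) ∈ GO n) (y : Euc n) :
    ‖C.W ξ y - C.W η y‖ ≤ 3 * Real.exp (-(a * (C.gp y ξ η / 2))) := by
  refine BdyAux.norm_sub_le_of_inner (C.un_W ha h.1 y).norm.le (C.un_W ha h.2.1 y).norm.le
    (Real.exp_pos _).le ?_
  have h1 := C.cc_upper ha h y
  have e : Real.exp (-(a * (C.gp y ξ η / 2))) ^ 2 *
      Real.exp (a * (C.cc ξ η + C.b ξ y + C.b η y)) = 1 := by
    rw [sq, ← Real.exp_add, ← Real.exp_add, gp]; simp; ring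
  have p := Real.exp_pos (a * (C.cc ξ η + C.b ξ y + C.b η y))
  refine le_of_mul_le_mul_right ?_ p
  rw [mul_assoc, e]; linarith

lemma gp_lower0 (h : (ξ, η) ∈ GO n) (x : Euc n) (R : ℝ) :
    2 * R - C.dd (C.gd x (C.W ξ x) R) (C.gd x (C.W η x) R) ≤ C.gp x ξ η := by
  have h1 := C.neg_cc_le ha h (C.gd x (C.W ξ x) R)
  have h2 := abs_le.1 (C.abs_b_sub_le ha h.2.1 (C.gd x (C.W ξ x) R) (C.gd x (C.W η x) R))
  rw [C.b_gd ha h.2.1] at h2
  rw [C.b_gd ha h.1] at h1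
  unfold gp; linarith [h2.2]

end

variable (H : Hyp n N a S)
include H

lemma gp_lower : ∃ L K : ℝ, a ≤ L ∧ 1 ≤ K ∧ ∀ x ξ η, (ξ, η) ∈ GO n →
    Real.exp (-(L * (C.gp x ξ η / 2))) ≤ K * ‖C.W ξ x - C.W η x‖ := by
  have ha := H.a_pos
  obtain ⟨L0, hL0, hL⟩ := lipS n N _ S G H.cpt
  obtain ⟨ε, hε, hc⟩ := C.lift_close H
  set L := max L0 a with hLd
  have L1 : L0 ≤ L := le_max_left _ _
  have Lp : 0 < L := hL0.trans_le L1
  refine ⟨L, max 1 (Real.exp (L * ε) / ε), le_max_right _ _, le_max_left _ _, fun x ξ η h => ?_⟩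
  have hv : C.Un x (C.W ξ x) := C.un_W ha h.1 x
  have hw : C.Un x (C.W η x) := C.un_W ha h.2.1 x
  set δ := ‖C.W ξ x - C.W η x‖ with hδ
  have δp : 0 < δ := by
    refine norm_pos_iff.2 (sub_ne_zero.2 fun e => ?_)
    have := C.inner_W_lt ha h x
    rw [e, real_inner_self_eq_norm_sq, hw.norm] at this
    norm_num at this
  refine le_trans ?_ (mul_le_mul_of_nonneg_right (le_max_right _ _) δp.le)
  have g0 := C.gp_nonneg ha h x
  by_cases hδε : ε ≤ δ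
  · calc Real.exp (-(L * (C.gp x ξ η / 2))) ≤ 1 := Real.exp_le_one_iff.2 (by nlinarith)
      _ ≤ Real.exp (L * ε) * (δ / ε) := one_le_mul_of_one_le_of_one_le
          (Real.one_le_exp (by positivity)) ((one_le_div hε).2 hδε)
      _ = _ := by ring
  push Not at hδε
  set R := Real.log (ε / δ) / L with hR
  have l0 : 0 ≤ Real.log (ε / δ) := Real.log_nonneg ((one_le_div δp).2 hδε.le)
  have R0 : 0 ≤ R := div_nonneg l0 Lp.le
  have eR : Real.exp (L * R) = ε / δ := by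
    rw [hR, mul_div_cancel₀ _ Lp.ne', Real.exp_log (by positivity)]
  have h1 := hc ε le_rfl (C.gd x (C.W ξ x)) (C.gd x (C.W η x)) 0 R
    (C.contDiff_gd_t _ _).continuous.continuousOn (C.contDiff_gd_t _ _).continuous.continuousOn
    (by rw [C.gd_zero, C.gd_zero, C.dd_self]; positivity) (fun u hu => by
      rw [C.pr_gd hv.mem, C.pr_gd hw.mem, ← dist_eq_norm]
      have k := (hL _ hv _ hw u).1
      rw [Prod.dist_eq] at k
      refine (le_max_left _ _).trans (k.trans ?_)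
      have : dist (C.pr x, C.W ξ x) (C.pr x, C.W η x) = δ := by
        rw [Prod.dist_eq, dist_self, dist_eq_norm, max_eq_right (norm_nonneg _)]
      rw [this, abs_of_nonneg hu.1, ← le_div_iff₀ δp, ← eR]
      exact Real.exp_le_exp.2 (mul_le_mul L1 hu.2 hu.1 Lp.le)) R ⟨R0, le_rfl⟩
  have h2 := C.gp_lower0 ha h x R
  calc Real.exp (-(L * (C.gp x ξ η / 2))) ≤ Real.exp (L * ε - L * R) :=
        Real.exp_le_exp.2 (by nlinarith)
    _ = _ := by rw [Real.exp_sub, eR]; field_simp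

/-- the visual metrics are Hölder equivalent -/
theorem hol_W : ∃ θ K : ℝ, 0 < θ ∧ θ ≤ 1 ∧ 0 < K ∧ ∀ x y ξ η, ξ ≠ 0 → η ≠ 0 →
    ‖C.W ξ y - C.W η y‖ ≤ K * Real.exp (a * C.dd x y) * ‖C.W ξ x - C.W η x‖ ^ θ := by
  have ha := H.a_pos
  obtain ⟨L, K, hL, hK, h⟩ := C.gp_lower H
  have Lp : 0 < L := ha.trans_le hL
  refine ⟨a / L, 3 * K ^ (a / L), by positivity, (div_le_one Lp).2 hL, by positivity,
    fun x y ξ η hξ hη => ?_⟩
  by_cases hG : (ξ, η) ∈ GO n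
  swap
  · rw [(C.W_eq_of_not_GO hξ hη hG).1, sub_self, norm_zero]; positivity
  have h1 := Real.rpow_le_rpow (Real.exp_pos _).le (h x ξ η hG) (by positivity : 0 ≤ a / L)
  rw [← Real.exp_mul, Real.mul_rpow (by positivity) (norm_nonneg _)] at h1
  have h2 := abs_le.1 (C.gp_lip ha hG x y)
  calc _ ≤ 3 * Real.exp (-(a * (C.gp y ξ η / 2))) := C.gp_upper ha hG y
    _ ≤ 3 * (Real.exp (a * C.dd x y) * Real.exp (-(L * (C.gp x ξ η / 2)) * (a / L))) := by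
      rw [← Real.exp_add]
      gcongr
      have : -(L * (C.gp x ξ η / 2)) * (a / L) = -(a * (C.gp x ξ η / 2)) := by field_simp
      rw [this]; nlinarith [h2.2]
    _ ≤ 3 * (Real.exp (a * C.dd x y) * (K ^ (a / L) * ‖C.W ξ x - C.W η x‖ ^ (a / L))) := by gcongr
    _ = _ := by ring



end Crest.Agent.N221.Cov
end
end

-- ▼ part N221/Dy/Hol

/-!
Row 221, block Dy (helper72): uniform Lipschitz and Hölder bounds in the charts.
-/

set_option autoImplicit false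

open MeasureTheory Set Filter Topology Metric
open scoped ContDiff RealInnerProductSpace ENNReal
open Crest.GeometryTopology.Submanifold
open Crest.Agent.R241.DDefs Crest.Agent.R241.D2
open Crest.Agent.R208.J Crest.Agent.R208.L

noncomputable section

namespace Crest.Agent.N221

section
variable {P E V : Type} [NormedAddCommGroup E] [NormedSpace ℝ E] [NormedAddCommGroup V]
  [NormedSpace ℝ V] {F : P → E → V} {A : P → Prop} {R : ℝ}

/-- bounded jets give a uniform Lipschitz constant -/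
lemma JB.lip (h : JB F {k | A k.1 ∧ ‖k.2‖ ≤ R})
    (hd : ∀ p x, A p → ‖x‖ ≤ R → DifferentiableAt ℝ (F p) x) :
    ∃ L > 0, ∀ p x x', A p → ‖x‖ ≤ R → ‖x'‖ ≤ R → ‖F p x - F p x'‖ ≤ L * ‖x - x'‖ := by
  obtain ⟨B, hB⟩ := h 1
  refine ⟨|B| + 1, by positivity, fun p x x' hp hx hx' =>
    (convex_closedBall (0 : E) R).norm_image_sub_le_of_norm_fderiv_le (𝕜 := ℝ)
      (fun y hy => hd p y hp (by simpa using hy)) (fun y hy => ?_) (by simpa) (by simpa)⟩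
  have := hB (p, y) ⟨hp, by simpa using hy⟩
  rw [norm_iteratedFDeriv_one] at this
  linarith [le_abs_self B]

lemma JB.bd0 {K : Set (P × E)} (h : JB F K) : ∃ B > 0, ∀ k ∈ K, ‖F k.1 k.2‖ ≤ B := by
  obtain ⟨B, hB⟩ := h 0
  refine ⟨|B| + 1, by positivity, fun k hk => ?_⟩
  have := hB k hk
  rw [norm_iteratedFDeriv_zero] at this
  linarith [le_abs_self B]

end



namespace Cov

variable {n N m : ℕ} {a : ℝ} {S : Set (Euc N)} {G : Geo n N (-(a ^ 2)) S} (C : Cov G)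

/-- uniform jets for deck invariant families over the frames -/
lemma jb_frm {E V : Type} [NormedAddCommGroup E] [NormedSpace ℝ E] [ProperSpace E]
    [NormedAddCommGroup V] [NormedSpace ℝ V] {F : FF n N m → E → V} {R : ℝ}
    (h : JC F {k | C.Frm k.1 ∧ ‖k.2‖ ≤ R})
    (hinv : ∀ f g, C.Frm f → C.Deck g → F (fg g f) = F f) : JB F {k | C.Frm k.1 ∧ ‖k.2‖ ≤ R} := by
  obtain ⟨D, -, hD⟩ := C.exists_deck
  refine ((h.mono (K' := {f | C.Frm f ∧ ‖f.1‖ ≤ D} ×ˢ closedBall 0 R)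
    fun k hk => ⟨hk.1.1, by simpa using hk.2⟩).bdd
    ((C.isCompact_frm D).prod (isCompact_closedBall _ _))).of_germ fun k hk => ?_
  obtain ⟨g, hg, h1⟩ := hD k.1.1
  exact ⟨fg g k.1, ⟨⟨hk.1.fg C hg, h1⟩, by simpa using hk.2⟩, by rw [hinv _ g hk.1 hg]⟩

variable (H : Hyp n N a S)
include H

lemma W_hy_lip (R : ℝ) : ∃ K > 0, ∀ (f : FF n N m) (ξ : Euc n) (q q' : Euc m), C.Frm f → ‖ξ‖ = 1 →
    ‖q‖ ≤ R → ‖q'‖ ≤ R → ‖C.W ξ (C.hy f q) - C.W ξ (C.hy f q')‖ ≤ K * ‖q - q'‖ := by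
  have h := C.unif_jb H (C.jc_W H (m := m)) (fun f ξ g hf hg hξ => funext fun q => by
    simp only [C.hy_fg hf hg, C.W_act H.a_pos hg hξ]) R
  obtain ⟨K, hK, h⟩ := JB.lip (A := fun p : FF n N m × Euc n => C.Frm p.1 ∧ ‖p.2‖ = 1)
    (h.mono fun k hk => ⟨hk.1.1, hk.1.2, hk.2⟩) fun p x hp _ =>
      ((C.jc_W H).sm (p, x) hp.2).differentiableAt (by simp)
  exact ⟨K, hK, fun f ξ q q' hf hξ => h (f, ξ) q q' ⟨hf, hξ⟩⟩

lemma HH_lip (R : ℝ) : ∃ K > 0, ∀ (f : FF n N m) (ξ : Euc n) (q q' : Euc m), C.Frm f → ‖ξ‖ = 1 →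
    ‖q‖ ≤ R → ‖q'‖ ≤ R → ‖C.HH f ξ q - C.HH f ξ q'‖ ≤ K * ‖q - q'‖ := by
  obtain ⟨K, hK, h⟩ := JB.lip (A := fun p : FF n N m × Euc n => C.Frm p.1 ∧ ‖p.2‖ = 1)
    ((C.jb_HH H R).mono fun k hk => ⟨hk.1.1, hk.1.2, hk.2⟩) fun p x hp _ =>
      ((C.jc_HH H).sm (p, x) hp.2).differentiableAt (by simp)
  exact ⟨K, hK, fun f ξ q q' hf hξ => h (f, ξ) q q' ⟨hf, hξ⟩⟩

omit H in
lemma Jh_bd (R : ℝ) : ∃ K > 0, ∀ (f : FF n N m) (q : Euc m), C.Frm f → ‖q‖ ≤ R →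
    ‖C.Jh f q‖ ≤ K := by
  obtain ⟨K, hK, h⟩ := (C.jb_frm (JC.of_smooth (K := {k | C.Frm k.1 ∧ ‖k.2‖ ≤ R}) fun k _ =>
    (C.contDiff_Jh (m := m)).contDiffAt) fun f g hf hg => C.Jh_fg hf hg).bd0
  exact ⟨K, hK, fun f q hf hq => h (f, q) ⟨hf, hq⟩⟩

/-- all jets of the leaves are Hölder in the boundary point, with ONE exponent -/
theorem hol_jet : ∃ θ : ℝ, 0 < θ ∧ θ ≤ 1 ∧ ∀ (j : ℕ) (R : ℝ), ∃ K > 0, ∀ (f : FF n N m)
    (ξ ξ' : Euc n) (q q₀ : Euc m), C.Frm f → ‖ξ‖ = 1 → ‖ξ'‖ = 1 → ‖q‖ ≤ R → ‖q₀‖ ≤ R →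
    ‖iteratedFDeriv ℝ j (C.pq f ξ) q - iteratedFDeriv ℝ j (C.pq f ξ') q‖ ≤
      K * ‖C.W ξ (C.hy f q₀) - C.W ξ' (C.hy f q₀)‖ ^ θ := by
  have ha := H.a_pos
  obtain ⟨θ, K, hθ, hθ1, hK, h⟩ := C.hol_W H
  refine ⟨θ / 2, by positivity, by linarith, fun j R => ?_⟩
  obtain ⟨c, hc, hi⟩ := X.int_all (2 * j + 1)
  obtain ⟨B, hB⟩ := C.jb_pq H (m := m) (R + 1) (2 * j + 1)
  obtain ⟨J, hJ, hJ'⟩ := C.Jh_bd (m := m) (R + 1)
  set K₁ := J * (K * Real.exp (a * (2 * R + 1))) * 2 with hK₁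
  refine ⟨c * (K₁ + 2 * |B|), by positivity, fun f ξ ξ' q q₀ hf hξ hξ' hq hq₀ => ?_⟩
  have h0 := bas_ne0 hξ
  have h0' := bas_ne0 hξ'
  set δ := ‖C.W ξ (C.hy f q₀) - C.W ξ' (C.hy f q₀)‖ with hδ
  rcases (norm_nonneg _ : 0 ≤ δ).eq_or_lt with e | hpos
  · rw [C.W_inj ha hξ hξ' (sub_eq_zero.1 (norm_eq_zero.1 e.symm)), sub_self, norm_zero]
    positivity
  have hδ2 : δ ≤ 2 := (norm_sub_le _ _).trans (by
    rw [(C.un_W ha h0 _).norm, (C.un_W ha h0' _).norm]; norm_num)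
  set v := (δ / 2) ^ (θ / 2) with hv
  have v0 : 0 < v := by positivity
  have v1 : v ≤ 1 := Real.rpow_le_one (by positivity) (by linarith) (by positivity)
  have vv : δ ^ θ ≤ 2 * v ^ 2 := by
    rw [hv, ← Real.rpow_natCast, ← Real.rpow_mul (by positivity), show θ / 2 * (2 : ℕ) = θ by
      push_cast; ring, Real.div_rpow hpos.le zero_le_two, mul_div_left_comm]
    refine le_mul_of_one_le_right (by positivity) ((one_le_div (by positivity)).2 ?_)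
    simpa using Real.rpow_le_rpow_of_exponent_le one_le_two hθ1
  set ε := v ^ ((j + 1 : ℕ) : ℝ)⁻¹ with hε
  have e0 : 0 < ε := by positivity
  have e1 : ε ≤ 1 := Real.rpow_le_one v0.le v1 (by positivity)
  have ee : ε ^ (j + 1) = v := Real.rpow_inv_natCast_pow v0.le (by omega)
  have hb : ∀ y ∈ ball q ε, ‖y‖ ≤ R + 1 := fun y hy => by
    have := norm_sub_norm_le y q; rw [mem_ball_iff_norm] at hy; linarith
  have c1 := C.contDiff_pq H h0 f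
  have c2 := C.contDiff_pq H h0' f
  have := hi _ _ (C.pq f ξ - C.pq f ξ') q ε (K₁ * v ^ 2) (2 * |B|) e0
    ((c1.sub c2).of_le (Jet.le_inf _)).contDiffOn (fun y hy => ?_) (fun y hy => ?_) j (by omega) q
    (mem_ball_self (by positivity))
  · rw [iteratedFDeriv_sub_apply (c1.of_le (Jet.le_inf _)).contDiffAt
      (c2.of_le (Jet.le_inf _)).contDiffAt, show 2 * j + 1 - j = j + 1 by omega, ee] at this
    refine this.trans ?_
    rw [mul_assoc c, add_mul]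
    have hvδ : v ≤ δ ^ (θ / 2) := Real.rpow_le_rpow (by positivity) (by linarith) (by positivity)
    gcongr
    rw [div_le_iff₀ (by positivity), mul_assoc K₁, sq]
    gcongr
    rw [← ee, pow_succ]; exact mul_le_of_le_one_right (by positivity) e1
  · have h1 := h (C.hy f q₀) (C.hy f y) ξ ξ' h0 h0'
    have h2 : C.dd (C.hy f q₀) (C.hy f y) ≤ 2 * R + 1 := by
      have := C.dd_triangle ha.le (C.hy f q₀) f.1 (C.hy f y)
      rw [C.dd_comm _ f.1, C.dd_hy hf, C.dd_hy hf] at this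
      linarith [hb y hy]
    rw [Pi.sub_apply, pq, pq, ← map_sub]
    refine (ContinuousLinearMap.le_opNorm _ _).trans ?_
    rw [LinearIsometryEquiv.norm_map, hK₁, mul_assoc, mul_assoc]
    gcongr
    · exact hJ' f y hf (hb y hy)
    · refine h1.trans ?_
      gcongr
  · rw [iteratedFDeriv_sub_apply (c1.of_le (Jet.le_inf _)).contDiffAt
      (c2.of_le (Jet.le_inf _)).contDiffAt]
    linarith [norm_sub_le (iteratedFDeriv ℝ (2 * j + 1) (C.pq f ξ) y)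
      (iteratedFDeriv ℝ (2 * j + 1) (C.pq f ξ') y), hB ((f, ξ), y) ⟨hf, hξ, hb y hy⟩,
      hB ((f, ξ'), y) ⟨hf, hξ', hb y hy⟩, le_abs_self B]

variable (hm : m + 1 = n)
include hm

lemma jb_uv : JB (C.uv (m := m)) {k | C.Frm k.1 ∧ ‖k.2‖ ≤ 2 * C.rr m} :=
  C.jb_frm (JC.of_smooth fun _ hk => C.contDiffAt_uv H hk.1 (C.Dm_of_le H hm hk.1 hk.2))
    fun _ _ hf hg => C.uv_fg hf hg

lemma uv_lip : ∃ K > 0, ∀ (f : FF n N m) (z z' : ZZ m), C.Frm f → ‖z‖ ≤ 2 * C.rr m →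
    ‖z'‖ ≤ 2 * C.rr m → ‖C.uv f z - C.uv f z'‖ ≤ K * ‖z - z'‖ :=
  (C.jb_uv H hm).lip fun f z hf hz => ((C.contDiffAt_uv H hf (C.Dm_of_le H hm hf hz)).comp z
    (contDiffAt_const.prodMk contDiffAt_id)).differentiableAt (by simp)

/-- the end points are Lipschitz for the visual distance at the foot point -/
lemma W_ge_lip : ∃ K > 0, ∀ (f : FF n N m) (z z' : ZZ m), C.Frm f → ‖z‖ ≤ 2 * C.rr m →
    ‖z'‖ ≤ 2 * C.rr m →
    ‖C.W (C.ge f z).1 (C.hy f z.1) - C.W (C.ge f z').1 (C.hy f z.1)‖ ≤ K * ‖z - z'‖ ∧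
    ‖C.W (C.ge f z).2 (C.hy f z.1) - C.W (C.ge f z').2 (C.hy f z.1)‖ ≤ K * ‖z - z'‖ := by
  obtain ⟨K, hK, h⟩ := C.uv_lip H hm
  obtain ⟨K', hK', h'⟩ := C.W_hy_lip H (m := m) (2 * C.rr m)
  refine ⟨K + K', by positivity, fun f z z' hf hz hz' => ?_⟩
  have d := C.Dm_of_le H hm hf hz
  have d' := C.Dm_of_le H hm hf hz'
  have g' := C.ge_GG H hf d'
  have h1 := h f z z' hf hz hz'
  have h2 := fun ξ hξ => (h' f ξ z'.1 z.1 hf hξ ((norm_fst_le _).trans hz')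
    ((norm_fst_le _).trans hz)).trans (mul_le_mul_of_nonneg_left (show _ ≤ ‖z - z'‖ by
      rw [norm_sub_rev]; exact norm_fst_le (z - z')) hK'.le)
  constructor
  · have h3 := h2 _ g'.1
    rw [C.W_ge H hf d'] at h3
    rw [C.W_ge H hf d]
    linarith [norm_sub_le_norm_sub_add_norm_sub (C.uv f z) (C.uv f z')
      (C.W (C.ge f z').1 (C.hy f z.1))]
  · have h3 := h2 _ g'.2.1
    rw [C.W_ge' H hf d'] at h3
    rw [C.W_ge' H hf d]
    rw [norm_sub_rev, ← neg_sub_neg] at h1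
    linarith [norm_sub_le_norm_sub_add_norm_sub (-C.uv f z) (-C.uv f z')
      (C.W (C.ge f z').2 (C.hy f z.1))]

/-- HÖLDER HOLONOMY: all jets of the two leaves through `z` depend Hölder continuously on `z` -/
theorem hol_leaf : ∃ θ : ℝ, 0 < θ ∧ θ ≤ 1 ∧ ∀ (j : ℕ) (R : ℝ), ∃ K > 0, ∀ (f : FF n N m)
    (z z' : ZZ m) (q : Euc m), C.Frm f → ‖z‖ ≤ 2 * C.rr m → ‖z'‖ ≤ 2 * C.rr m → ‖q‖ ≤ R →
    ‖iteratedFDeriv ℝ j (C.pq f (C.ge f z).1) q - iteratedFDeriv ℝ j (C.pq f (C.ge f z').1) q‖ ≤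
      K * ‖z - z'‖ ^ θ ∧
    ‖iteratedFDeriv ℝ j (C.pq f (C.ge f z).2) q - iteratedFDeriv ℝ j (C.pq f (C.ge f z').2) q‖ ≤
      K * ‖z - z'‖ ^ θ := by
  obtain ⟨θ, hθ, hθ1, h⟩ := C.hol_jet H (m := m)
  obtain ⟨K', hK', h'⟩ := C.W_ge_lip H hm
  refine ⟨θ, hθ, hθ1, fun j R => ?_⟩
  obtain ⟨K, hK, h⟩ := h j (max R (2 * C.rr m))
  refine ⟨K * K' ^ θ, by positivity, fun f z z' q hf hz hz' hq => ?_⟩
  have g := C.ge_GG H hf (C.Dm_of_le H hm hf hz)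
  have g' := C.ge_GG H hf (C.Dm_of_le H hm hf hz')
  have h1 := fun ξ ξ' hξ hξ' => h f ξ ξ' q z.1 hf hξ hξ' (le_max_of_le_left hq)
    (le_max_of_le_right ((norm_fst_le _).trans hz))
  rw [mul_assoc, ← Real.mul_rpow hK'.le (norm_nonneg _)]
  exact ⟨(h1 _ _ g.1 g'.1).trans (by gcongr; exact (h' f z z' hf hz hz').1),
    (h1 _ _ g.2.1 g'.2.1).trans (by gcongr; exact (h' f z z' hf hz hz').2)⟩

/-- HÖLDER SLOPES -/
theorem hol_S : ∃ θ K : ℝ, 0 < θ ∧ θ ≤ 1 ∧ 0 < K ∧ ∀ (f : FF n N m) (z z' : ZZ m), C.Frm f →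
    ‖z‖ ≤ 2 * C.rr m → ‖z'‖ ≤ 2 * C.rr m →
    ‖C.Ss f z - C.Ss f z'‖ ≤ K * ‖z - z'‖ ^ θ ∧ ‖C.Su f z - C.Su f z'‖ ≤ K * ‖z - z'‖ ^ θ := by
  obtain ⟨θ, hθ, hθ1, h⟩ := C.hol_leaf H hm
  obtain ⟨K, hK, h⟩ := h 1 (2 * C.rr m)
  obtain ⟨L, hL, h'⟩ := C.HH_lip H (m := m) (2 * C.rr m)
  refine ⟨θ, K + L, hθ, hθ1, by positivity, fun f z z' hf hz hz' => ?_⟩
  have g' := C.ge_GG H hf (C.Dm_of_le H hm hf hz')
  have hq := (norm_fst_le _).trans hz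
  have key : ∀ ξ ξ', ‖ξ'‖ = 1 → ‖iteratedFDeriv ℝ 1 (C.pq f ξ) z.1 -
      iteratedFDeriv ℝ 1 (C.pq f ξ') z.1‖ ≤ K * ‖z - z'‖ ^ θ →
      ‖C.HH f ξ z.1 - C.HH f ξ' z'.1‖ ≤ (K + L) * ‖z - z'‖ ^ θ := fun ξ ξ' hξ' h1 => by
    have e : ‖C.HH f ξ z.1 - C.HH f ξ' z.1‖ ≤ K * ‖z - z'‖ ^ θ :=
      ContinuousLinearMap.opNorm_le_bound _ (by positivity) fun e => by
        have := (iteratedFDeriv ℝ 1 (C.pq f ξ) z.1 -
          iteratedFDeriv ℝ 1 (C.pq f ξ') z.1).le_of_opNorm_le h1 fun _ => e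
        simpa [HH] using this
    have h2 := h' f ξ' z.1 z'.1 hf hξ' hq ((norm_fst_le _).trans hz')
    have h3 : ‖z.1 - z'.1‖ ≤ ‖z - z'‖ ^ θ := (norm_fst_le (z - z')).trans
      (Real.self_le_rpow_of_le_one (norm_nonneg _) ((norm_sub_le _ _).trans (by
        linarith [(C.rad H hm).le])) hθ1)
    nlinarith [norm_sub_le_norm_sub_add_norm_sub (C.HH f ξ z.1) (C.HH f ξ' z.1) (C.HH f ξ' z'.1)]
  refine ⟨key _ _ g'.1 (h f z z' z.1 hf hz hz' hq).1, ?_⟩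
  rw [Su, Su, neg_sub_neg, norm_sub_rev]
  exact key _ _ g'.2.1 (h f z z' z.1 hf hz hz' hq).2


end Cov

end Crest.Agent.N221
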