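import Crest.Agent.N221.Dy.Sp

/-!
Row 221, block Dy (helper85): unstable boxes, nodes, returns.
-/

set_option autoImplicit false
set_option linter.unusedSectionVars false
set_option linter.unusedVariables false

open MeasureTheory Set Filter Topology Metric
open scoped ContDiff RealInnerProductSpace ENNReal
open Crest.GeometryTopology.Submanifold
open Crest.Agent.R241.DDefs Crest.Agent.R241.D2
open Crest.Agent.R208.J Crest.Agent.R208.L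

noncomputable section

namespace Crest.Agent.N221.Cov

variable {n N m : ℕ} {a : ℝ} {S : Set (Euc N)} {G : Geo n N (-(a ^ 2)) S} (C : Cov G)
variable {f f' f'' f₀ : FF n N m} {z z' z₀ : ZZ m} {x y ξ η : Euc n} {v w : Euc N} {q : Euc m}
  {g : Euc n → Euc n} {s t : ℝ}

variable (H : Hyp n N a S) (hm : m + 1 = n)
include H hm

/-- the centre leaves -/
lemma cen_s (hf : C.Frm f) : C.Fw f (C.ge f 0).1 ∧ C.pq f (C.ge f 0).1 0 = 0 ∧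
    C.gs f (C.ge f 0).1 0 = 0 := by
  have r0 := C.rr_pos H hm
  have e := C.eq_gs H hf (C.Dm_of_lt H hm hf (z := 0) (by simpa using r0))
  exact ⟨(C.rad H hm).front f hf 0 (by rw [norm_zero]; positivity), congrArg Prod.snd e, e⟩

lemma cen_u (hf : C.Frm f) : C.Fw (fp f) (C.ge f 0).2 ∧ C.pq f (C.ge f 0).2 0 = 0 ∧
    C.gu f (C.ge f 0).2 0 = 0 := by
  have r0 := C.rr_pos H hm
  have e := C.eq_gu H hf (C.Dm_of_lt H hm hf (z := 0) (by simpa using r0))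
  exact ⟨C.back H hm hf (by rw [norm_zero]; positivity), neg_eq_zero.1 (congrArg Prod.snd e), e⟩

lemma Ov.ge_eq (hf : C.Frm f) (hf' : C.Frm f') (h : C.Ov f f' t) : C.ge f' 0 = C.ge f 0 := by
  obtain ⟨m1, m2, -⟩ := C.Tf_zero H hm hf hf' h
  simpa [m2] using (C.Tf_spec H hm hf' m1).2

omit H hm in
lemma Ov.rev (hf : C.Frm f) (hf' : C.Frm f') (h : C.Ov f f' t) :
    C.Ov (N221.fp f') (N221.fp f) t := by
  simpa using (h.symm C hf).fp C hf'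

/-- `box_s` and `lf_lip` for unstable leaves: if the leaf of `η` passes near the centre of the
EARLIER frame `f`, its plaque in `f'` is contracted into the chart `f` -/
lemma box_u : ∃ K δ : ℝ, 0 < K ∧ 0 < δ ∧ ∀ (f f' : FF n N m) (η : Euc n) (t ε : ℝ), C.Frm f →
    C.Frm f' → C.Ov f f' t → 0 ≤ t → C.Fw (fp f) η → ε ≤ δ → ‖C.pq f η 0‖ ≤ ε →
    C.Fw (fp f') η ∧ ‖C.pq f' η 0‖ ≤ K * ε * Real.exp (-(a * t)) ∧ ∀ q, ‖q‖ ≤ ε →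
      C.gu f' η q ∈ C.dm f' f ∧ C.Tf f' f (C.gu f' η q) = C.gu f η (C.lf (fp f') (fp f) η q) ∧
      ‖C.Tf f' f (C.gu f' η q)‖ ≤ K * ε ∧ |C.tm f' f (C.gu f' η q) + t| ≤ K * ε ∧ ∀ q', ‖q'‖ ≤ ε →
      ‖C.Tf f' f (C.gu f' η q) - C.Tf f' f (C.gu f' η q')‖ ≤
        K * Real.exp (-(a * t)) * ‖q - q'‖ := by
  obtain ⟨K, δ, K0, δ0, h1⟩ := C.box_s H hm (m := m)
  obtain ⟨K', δ', K0', δ0', h2⟩ := C.lf_lip H hm (m := m)
  obtain ⟨L, L0, h3⟩ := C.pq_lip H hm (m := m)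
  have r1 := (C.rad H hm).le
  refine ⟨max K ((1 + L) * K'), min δ δ', lt_max_of_lt_left K0, lt_min δ0 δ0',
    fun f f' η t ε hf hf' ho ht hη hε hp => ?_⟩
  rw [le_min_iff] at hε
  have ε0 := (norm_nonneg _).trans hp
  obtain ⟨a1, a2, a3⟩ := h1 _ _ η t ε hf'.fp hf.fp (ho.rev C hf hf') ht hη hε.1 hp
  have key : ∀ q, ‖q‖ ≤ ε → C.gu f' η q ∈ C.dm f' f := fun q hq =>
    C.dm_fp.1 (by rw [← C.gs_fp]; exact (a3 q hq).1)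
  refine ⟨a1, a2.trans (by gcongr; exact le_max_left _ _), fun q hq => ?_⟩
  obtain ⟨b1, b2, b3⟩ := a3 q hq
  obtain ⟨c1, c2⟩ := C.Tf_fp H hm hf' hf (key q hq)
  rw [C.gs_fp, c1, norm_flp] at b2
  rw [C.gs_fp, c2, ← neg_add', abs_neg] at b3
  have kk : K * ε ≤ max K ((1 + L) * K') * ε := by gcongr; exact le_max_left _ _
  refine ⟨key q hq, (C.Tf_gu H hm hf' hf a1 (key q hq)).1, b2.trans kk, b3.trans kk,
    fun q' hq' => ?_⟩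
  have d := (h2 _ _ η t hf'.fp hf.fp (ho.rev C hf hf') ht hη (hp.trans hε.2) q q' (hq.trans hε.2)
    (hq'.trans hε.2)).2
  have n1 := (C.Tf_gs H hm hf'.fp hf.fp a1 b1).2.2.1
  have n2 := (C.Tf_gs H hm hf'.fp hf.fp a1 (a3 q' hq').1).2.2.1
  have d2 := (h3 f η _ _ hf hη.1 (by linarith : _ ≤ (1 : ℝ)) (by linarith : _ ≤ (1 : ℝ))).2.trans
    (mul_le_mul_of_nonneg_left d L0.le)
  rw [(C.Tf_gu H hm hf' hf a1 (key q hq)).1, (C.Tf_gu H hm hf' hf a1 (key q' hq')).1]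
  have p : 0 ≤ K' * Real.exp (-(a * t)) * ‖q - q'‖ := by positivity
  refine le_trans ?_ (show (1 + L) * K' * Real.exp (-(a * t)) * ‖q - q'‖ ≤ _ by
    gcongr; exact le_max_right _ _)
  refine max_le (d.trans (by nlinarith)) ?_
  simp only [gu, Prod.snd_sub, neg_sub_neg]
  rw [norm_sub_rev]
  exact d2.trans (by nlinarith)

/-- pull back along the centre unstable leaf -/
lemma pull_u : ∃ K δ : ℝ, 0 < K ∧ 0 < δ ∧ ∀ (f f' : FF n N m) (t : ℝ) (z' : ZZ m), C.Frm f →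
    C.Frm f' → C.Ov f f' t → 0 ≤ t → ‖z'‖ ≤ δ → (C.ge f' z').2 = (C.ge f' 0).2 →
    z' ∈ C.dm f' f ∧ ‖C.Tf f' f z'‖ ≤ K * Real.exp (-(a * t)) * ‖z'‖ ∧
      |C.tm f' f z' + t| ≤ K * ‖z'‖ := by
  obtain ⟨K, δ, K0, δ0, h⟩ := C.box_u H hm (m := m)
  have r0 := C.rr_pos H hm
  refine ⟨K, min δ (C.rr m), K0, lt_min δ0 r0, fun f f' t z' hf hf' ho ht hz e => ?_⟩
  rw [le_min_iff] at hz
  obtain ⟨c1, c2, -⟩ := C.cen_u H hm hf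
  obtain ⟨-, -, a3⟩ := h f f' _ t ‖z'‖ hf hf' ho ht c1 hz.1 (by simp [c2])
  obtain ⟨b1, -, -, b4, b5⟩ := a3 z'.1 (norm_fst_le _)
  have b6 := b5 0 (by simp)
  rw [← ho.ge_eq C H hm hf hf'] at b1 b4 b6
  rw [(C.cen_u H hm hf').2.2, (C.Tf_zero H hm hf' hf (ho.symm C hf)).2.1, sub_zero, sub_zero] at b6
  rw [← e, C.eq_gu H hf' (C.Dm_of_le H hm hf' (by linarith [hz.2]))] at b1 b4 b6
  exact ⟨b1, b6.trans (by gcongr; exact norm_fst_le _), b4⟩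

/-- push forward along the centre stable leaf -/
lemma push_s : ∃ K δ : ℝ, 0 < K ∧ 0 < δ ∧ ∀ (f f' : FF n N m) (t : ℝ) (z : ZZ m), C.Frm f →
    C.Frm f' → C.Ov f f' t → 0 ≤ t → ‖z‖ ≤ δ → (C.ge f z).1 = (C.ge f 0).1 →
    z ∈ C.dm f f' ∧ ‖C.Tf f f' z‖ ≤ K * Real.exp (-(a * t)) * ‖z‖ ∧
      |C.tm f f' z - t| ≤ K * ‖z‖ := by
  obtain ⟨K, δ, K0, δ0, h⟩ := C.pull_u H hm (m := m)
  refine ⟨K, δ, K0, δ0, fun f f' t z hf hf' ho ht hz e => ?_⟩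
  have e0 := C.ge_fp f 0
  rw [show flp (0 : ZZ m) = 0 by simp [flp]] at e0
  obtain ⟨a1, a2, a3⟩ := h _ _ t (flp z) hf'.fp hf.fp (ho.rev C hf hf') ht (by rwa [norm_flp])
    (by rw [C.ge_fp, e0]; exact e)
  have m1 := C.dm_fp.1 a1
  obtain ⟨c1, c2⟩ := C.Tf_fp H hm hf hf' m1
  rw [c1, norm_flp, norm_flp] at a2
  rw [c2, norm_flp, neg_add_eq_sub, abs_sub_comm] at a3
  exact ⟨m1, a2, a3⟩



/-- RETURNS in two halves: a point of the centre stable plaque of `f` that lies, at time about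
`-(s + t)`, on the centre unstable plaque of a translate of `f₀` -/
lemma ret {ε : ℝ} (hε : 0 < ε) : ∃ R : ℝ, ∀ (f₀ f₁ f₂ f : FF n N m) (s t : ℝ), C.Frm f₀ →
    C.Frm f₁ → C.Frm f₂ → C.Frm f → C.Ov f₀ f₁ s → C.Ov f₂ f t → 0 ≤ s → 0 ≤ t →
    ∃ g z₀ z, C.Deck g ∧ C.dd (g f₁.1) f₂.1 ≤ R ∧ ‖z₀‖ ≤ ε * Real.exp (-(a * s)) ∧
      ‖z‖ ≤ ε * Real.exp (-(a * t)) ∧
      C.ge f z = ((C.ge f 0).1, (C.ge (fg g f₀) 0).2) ∧
      C.Fw (fg g f₁) (C.ge f 0).1 ∧ ‖C.pq (fg g f₁) (C.ge f 0).1 0‖ ≤ ε ∧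
      C.Fw (fp f₂) (C.ge (fg g f₀) 0).2 ∧ ‖C.pq f₂ (C.ge (fg g f₀) 0).2 0‖ ≤ ε ∧
      z₀ ∈ C.dm (fg g f₀) (fg g f₁) ∧ ‖C.Tf (fg g f₀) (fg g f₁) z₀‖ ≤ ε ∧
      z₀ ∈ C.dm (fg g f₀) f₂ ∧ ‖C.Tf (fg g f₀) f₂ z₀‖ ≤ ε ∧
      z₀ ∈ C.dm (fg g f₀) f ∧ C.Tf (fg g f₀) f z₀ = z ∧
      |C.tm (fg g f₀) f z₀ - (s + t)| ≤ R := by
  obtain ⟨K, δ, K0, δ0, hK⟩ := C.pull_u H hm (m := m)
  obtain ⟨K', δ', K0', δ0', hK'⟩ := C.push_s H hm (m := m)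
  obtain ⟨R, hR⟩ := C.spec_ch H hm (m := m)
    (lt_min (lt_min δ0 δ0') (lt_min hε (lt_min (div_pos hε K0) (div_pos hε K0'))))
  refine ⟨R + 4 * ε, fun f₀ f₁ f₂ f s t h0 h1 h2 hf o1 o2 hs ht => ?_⟩
  obtain ⟨g, hg, d0, w1, p1, w2, p2, z₁, z₂, n1, n2, m1, m2, e1, e2⟩ := hR f₁ f₂ h1 h2
  simp only [le_min_iff, le_div_iff₀' K0, le_div_iff₀' K0'] at n1 n2 p1 p2
  have h0' := h0.fg C hg
  have h1' := h1.fg C hg
  have o1' : C.Ov (fg g f₀) (fg g f₁) s :=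
    ⟨by show g f₁.1 = C.gd (g f₀.1) _ _; rw [o1.1]; exact (hg.gd_eq C h0.un.mem s).symm,
      by show f₁.2.1 = C.vel (g f₀.1) _ _; rw [o1.2, hg.vel_eq]; rfl⟩
  obtain ⟨a1, a2, a3⟩ := hK _ _ s z₁ h0' h1' o1' hs n1.1.1 (by rw [e1])
  obtain ⟨b1, b2, b3⟩ := C.Tf_symm H hm h1' h0' a1
  obtain ⟨c1, c2, c3⟩ := hK' _ _ t z₂ h2 hf o2 ht n2.1.2 (by rw [e2])
  obtain ⟨k1, k2, k3⟩ := C.Tf_comp H hm h1' h2 b1 (by rwa [b2])
  rw [b2, m2] at k2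
  rw [b2] at k3
  obtain ⟨l1, l2, l3⟩ := C.Tf_comp H hm h2 hf k1 (by rwa [k2])
  rw [k2] at l2 l3
  have g1 := o1'.ge_eq C H hm h0' h1'
  have g2 := o2.ge_eq C H hm h2 hf
  have t1 := C.dd_tm H hm h1' h2 m1
  rw [m2] at t1
  rw [← g2] at w1 p1
  rw [g1] at w2 p2
  refine ⟨g, _, _, hg, by linarith, a2.trans ?_, c2.trans ?_, ?_, w1, p1.2.1, w2, p2.2.1, b1,
    by rw [b2]; exact n1.2.1, k1, by rw [k2]; exact n2.2.1, l1, l2, ?_⟩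
  · nlinarith [Real.exp_pos (-(a * s)), n1.2.2.1]
  · nlinarith [Real.exp_pos (-(a * t)), n2.2.2.2]
  · rw [(C.Tf_spec H hm hf c1).2, e2, g1, g2]
  · rw [l3, k3, b3]
    have i1 := abs_le.1 (a3.trans n1.2.2.1)
    have i2 := abs_le.1 (c3.trans n2.2.2.2)
    have i3 := (abs_le.1 (t1.trans (add_le_add ((norm_fst_le z₁).trans n1.2.1)
      ((norm_fst_le z₂).trans n2.2.1)))).2
    have i4 := abs_le.1 (show |C.tm (fg g f₁) f₂ z₁| ≤ R + 2 * ε by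
      have : C.dd (fg g f₁).1 f₂.1 ≤ R := d0
      linarith)
    rw [abs_le]
    constructor <;> linarith [i1.1, i1.2, i2.1, i2.2, i4.1, i4.2]


end Crest.Agent.N221.Cov
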